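import Vale.Agent.P013.All
import Vale.Agent.P013.JDef

open Jac

theorem Vale.Agent.Results.P013.Jacobsthal.result :
    (∀ n : ℕ, 1 ≤ n → 1 ≤ jac n ∧ Covers n (jac n)) ∧ (∀ k : ℕ, 1 ≤ k → BddAbove (vals k)) ∧
    (∃ C : ℝ, 0 < C ∧ ∀ k : ℕ, 1 ≤ k → (hh k : ℝ) ≤ C * (k : ℝ) ^ 2) ∧
    ∀ b : ℕ, ∃ C : ℝ, 0 < C ∧ ∀ k : ℕ, 1 ≤ k →
      (hh k : ℝ) ≤ C * (k : ℝ) ^ 2 / Real.log ((k : ℝ) + 1) ^ b := by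
  have key : ∀ b : ℕ, ∃ C : ℝ, 0 < C ∧ ∀ k : ℕ, 1 ≤ k → ∀ v ∈ vals k,
      (v : ℝ) ≤ C * (k : ℝ) ^ 2 / Real.log ((k : ℝ) + 1) ^ b := by
    intro b
    obtain ⟨C, hC, h⟩ := a_End b
    refine ⟨C, hC, fun k hk v ⟨n, h1, h2, e⟩ => ?_⟩
    obtain ⟨m, m1, m2, m3⟩ := h k n hk h1 h2
    refine le_trans ?_ m2
    rw [e]
    exact_mod_cast Nat.sInf_le (s := {m : ℕ | 1 ≤ m ∧ Covers n m}) ⟨m1, m3⟩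
  have bd : ∀ k : ℕ, 1 ≤ k → BddAbove (vals k) := by
    intro k hk
    obtain ⟨C, -, h⟩ := key 0
    exact ⟨_, fun v hv => Nat.le_floor (h k hk v hv)⟩
  have fin : ∀ b : ℕ, ∃ C : ℝ, 0 < C ∧ ∀ k : ℕ, 1 ≤ k →
      (hh k : ℝ) ≤ C * (k : ℝ) ^ 2 / Real.log ((k : ℝ) + 1) ^ b := by
    intro b
    obtain ⟨C, hC, h⟩ := key b
    exact ⟨C, hC, fun k hk => h k hk _ (Nat.sSup_mem ⟨_, 1, le_rfl, by simp, rfl⟩ (bd k hk))⟩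
  refine ⟨fun n hn => ?_, bd, ?_, fin⟩
  · obtain ⟨C, -, h⟩ := a_End 0
    obtain ⟨m, m1, -, m3⟩ := h (n.primeFactors.card + 1) n (by omega) hn (by omega)
    exact Nat.sInf_mem (s := {m : ℕ | 1 ≤ m ∧ Covers n m}) ⟨m, m1, m3⟩
  · obtain ⟨C, hC, h⟩ := fin 0
    exact ⟨C, hC, fun k hk => by simpa using h k hk⟩
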